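import Vale.Agent.P267.H87.Cut2

/-!
# P267 / XA-T1: solvability of `∂̄u = g` in degree one on `M`, as a limit of the closed
cyclic coverings `X_m` (helper87)
-/

set_option linter.unusedVariables false
set_option linter.unusedSectionVars false

open scoped Manifold ContDiff ComplexConjugate Matrix ComplexOrder Topology
open MeasureTheory Set Filter

noncomputable section

namespace Vale.Agent.P267.H87

open FL XT

variable {M : Type} [TopologicalSpace M] [ChartedSpace C2 M] (D : XTData M)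
variable {ι : Type} [Fintype ι] [DecidableEq ι]


variable [IsManifold 𝓘(ℂ, C2) ω M]

/-- the multiplier `e^{δ m}` -/
def mult (δ : ℝ) (m : ℕ) : ℂ := ((Real.exp (δ * m) : ℝ) : ℂ)

theorem mult_ne (δ : ℝ) (m : ℕ) : mult δ m ≠ 0 := by
  rw [mult]
  exact_mod_cast (Real.exp_pos _).ne'

/-- the form `g`, cut off and transplanted to `X_m` -/
def Gf (δ : ℝ) (m : ℕ) (g : M → Fin 2 → EuclideanSpace ℂ ι) : M → Fin 2 → EuclideanSpace ℂ ι :=
  D.transp (m : ℤ) (mult δ m) fun x k => cut D m x • g x k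

section

variable {L : LB M ι} {i₀ : ι} {a : M → Fin 2 → ℂ} {R N : ℝ} {m₀ : ℕ} {Lm : ℕ → LB M ι}
  {am : ℕ → M → Fin 2 → ℂ} {δ : ℝ} {g : M → Fin 2 → EuclideanSpace ℂ ι} {m : ℕ}

theorem cutg_zero (hm : 0 < m) (g : M → Fin 2 → EuclideanSpace ℂ ι) (x : M) (hx : ((m : ℤ) : ℝ) / 4 ≤ |D.f x|) :
    (fun x k => cut D m x • g x k) x = 0 := by
  have h : cut D m x = 0 := cut_zero D hm (by push_cast at hx; exact hx)
  funext k
  change cut D m x • g x k = 0
  rw [h, zero_smul]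

theorem reg1_cutg (hg : Reg1 ∞ 0 g) : Reg1 ∞ 0 fun x k => cut D m x • g x k :=
  reg1_iff_at.2 fun x => At1.smul ((reg0_cut D m).at x) (hg.at x)

theorem reg1_Gf (hm : 0 < m) (hg : Reg1 ∞ 0 g) : Reg1 ∞ 0 (Gf D δ m g) :=
  reg1_transp D (by exact_mod_cast hm) _ (cutg_zero D hm g) (reg1_cutg D hg)

theorem sec1_Gf (hm : m₀ ≤ m) (hP : D.PerSeq L i₀ a N m₀ Lm am) (hs : L.Sec1 g) :
    (Lm m).Sec1 (Gf D δ m g) := by
  have hm0 : (0 : ℤ) < m := by have := hP.two_le; omega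
  refine sec1_transp D hm0 (hP.perP m hm) fun x k => ?_
  rw [act_smul, hs x k]

theorem equiv_Gf (hm : 0 < m) : D.Equiv (m : ℤ) (mult δ m) (Gf D δ m g) :=
  D.equiv_transp (by exact_mod_cast hm.ne') (mult_ne δ m) _

theorem Gf_eq (hm : 0 < m) {x : M} (hx : |D.f x| ≤ m / 8) : Gf D δ m g x = g x := by
  have hm' : (0 : ℝ) < m := by exact_mod_cast hm
  rw [Gf, D.transp_eq (by exact_mod_cast hm) _ (by push_cast; linarith)]
  funext k
  rw [cut_one D hm hx, one_smul]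

theorem n1_cutg_le (g : M → Fin 2 → EuclideanSpace ℂ ι) (x : M) :
    n1 D.h 0 (fun x k => cut D m x • g x k) x ≤ n1 D.h 0 g x := by
  have h := n1_smul D.herm.posDef 0 (cut D m) g x
  have h' : n1 D.h 0 (fun x k => cut D m x • g x k) x = ‖cut D m x‖ * n1 D.h 0 g x := h
  rw [h']
  exact mul_le_of_le_one_left (n1_nonneg D.herm.posDef _ _ _) (norm_cut_le D m x)

theorem n1_Gf_le {A : ℝ} (hb : ∀ x, n1 D.h 0 g x ≤ A * Real.exp (δ * D.f x))
    (x : M) : n1 D.h 0 (Gf D δ m g) x ≤ A * Real.exp (δ * D.f x) := by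
  rw [Gf, n1_transp, ← zpow_weight D (m := m) (δ := δ) x, mul_left_comm]
  rw [mult]
  gcongr
  exact (n1_cutg_le D g _).trans (hb _)

/-- `∂̄` of the cut off form, for the periodic structure, in the central window -/
theorem n2_rho_le (hm : m₀ ≤ m) (hE : L.IsHol a) (hP : D.PerSeq L i₀ a N m₀ Lm am)
    (hg : Reg1 ∞ 0 g) (hs : L.Sec1 g) (hc : ∀ x, L.db1 a 0 g x = 0) {Cc Ca : ℝ} (hCa : 0 ≤ Ca)
    (hCc : 0 ≤ Cc)
    (hcut : ∀ (m : ℕ) (x : M), n1 D.h 0 (dbar0 0 (cut D m)) x ≤ Cc / m)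
    (hclose : ∀ m ≥ m₀, ∀ x, |D.f x| ≤ m / 2 →
      n1 D.h 0 (fun y => am m y - a y) x ≤ Ca * Real.exp (-(N * m / 2))) (x : M) :
    n2 D.h 0 ((Lm m).db1 (am m) 0 (fun x k => cut D m x • g x k)) x ≤
      (Cc / m + Ca * Real.exp (-(N * m / 2))) * n1 D.h 0 g x := by
  have hm0 : 0 < m := by have := hP.two_le; omega
  have hm0' : (0 : ℤ) < m := by exact_mod_cast hm0
  have hmR : (0 : ℝ) < m := by exact_mod_cast hm0
  have hng := n1_nonneg D.herm.posDef 0 g x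
  rcases lt_or_ge |D.f x| ((m : ℝ) / 2) with hx | hx
  · have hPx : (Lm m).P x = L.P x := P_eq D hm0' (hP.perP m hm) (by push_cast; exact hx)
    have e1 : (Lm m).db1 (am m) 0 (fun x k => cut D m x • g x k) x =
        (dbar0 0 (cut D m) x 0 • g x 1 - dbar0 0 (cut D m) x 1 • g x 0) +
        ((am m x 0 - a x 0) • (cut D m x • g x 1) - (am m x 1 - a x 1) • (cut D m x • g x 0)) := by
      rw [db1_congr hPx EventuallyEq.rfl, db1_change L a (am m),
        db1_smul L a (((reg0_cut D m).at x).of_le (by simp)) ((hg.at x).of_le (by simp)) hs, hc,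
        smul_zero, add_zero]
    have e2 : n2 D.h 0 ((Lm m).db1 (am m) 0 (fun x k => cut D m x • g x k)) x ≤
        n2 D.h 0 (fun x => dbar0 0 (cut D m) x 0 • g x 1 - dbar0 0 (cut D m) x 1 • g x 0) x +
        n2 D.h 0 (fun x => (am m x 0 - a x 0) • (cut D m x • g x 1) -
          (am m x 1 - a x 1) • (cut D m x • g x 0)) x := by
      have h3 := n2_add_le D.herm.posDef 0
        (fun x => dbar0 0 (cut D m) x 0 • g x 1 - dbar0 0 (cut D m) x 1 • g x 0)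
        (fun x => (am m x 0 - a x 0) • (cut D m x • g x 1) -
          (am m x 1 - a x 1) • (cut D m x • g x 0)) x
      refine le_trans (le_of_eq ?_) h3
      rw [n2_eq, n2_eq, e1]
    refine e2.trans ?_
    rw [add_mul]
    apply add_le_add
    · refine (n2_wedge_le D.herm.posDef 0 (dbar0 0 (cut D m)) g x).trans ?_
      gcongr
      exact hcut m x
    · refine (n2_wedge_le D.herm.posDef 0 (fun y => am m y - a y)
        (fun x k => cut D m x • g x k) x).trans ?_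
      gcongr
      · exact n1_nonneg D.herm.posDef _ _ _
      · exact hclose m hm x hx.le
      · exact n1_cutg_le D g x
  · have h0 : (fun x k => cut D m x • g x k) =ᶠ[𝓝 x] fun _ => (0 : Fin 2 → EuclideanSpace ℂ ι) := by
      have : ∀ᶠ y in 𝓝 x, (m : ℝ) / 4 < |D.f y| :=
        (continuous_f D).abs.continuousAt.eventually (lt_mem_nhds (by linarith))
      filter_upwards [this] with y hy
      exact cutg_zero D hm0 g y (by push_cast; exact hy.le)
    have e1 : (Lm m).db1 (am m) 0 (fun x k => cut D m x • g x k) x = 0 := by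
      rw [db1_congr (L := Lm m) rfl h0, LB.db1]
      have : dbar1 0 (fun _ : M => (0 : Fin 2 → EuclideanSpace ℂ ι)) x = 0 := dbar1_zero
      rw [this]
      simp
    rw [n2_eq, e1, N2, norm_zero, zero_mul]
    positivity

theorem n2_db1_Gf_le (hm : m₀ ≤ m) (hE : L.IsHol a) (hP : D.PerSeq L i₀ a N m₀ Lm am)
    (hg : Reg1 ∞ 0 g) (hs : L.Sec1 g) (hc : ∀ x, L.db1 a 0 g x = 0) {Cc Ca : ℝ} (hCa : 0 ≤ Ca)
    (hCc : 0 ≤ Cc)
    (hcut : ∀ (m : ℕ) (x : M), n1 D.h 0 (dbar0 0 (cut D m)) x ≤ Cc / m)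
    (hclose : ∀ m ≥ m₀, ∀ x, |D.f x| ≤ m / 2 →
      n1 D.h 0 (fun y => am m y - a y) x ≤ Ca * Real.exp (-(N * m / 2)))
    {A : ℝ} (hb : ∀ x, n1 D.h 0 g x ≤ A * Real.exp (δ * D.f x)) (x : M) :
    n2 D.h 0 ((Lm m).db1 (am m) 0 (Gf D δ m g)) x ≤
      (Cc / m + Ca * Real.exp (-(N * m / 2))) * A * Real.exp (δ * D.f x) := by
  have hm0 : 0 < m := by have := hP.two_le; omega
  have hm0' : (0 : ℤ) < m := by exact_mod_cast hm0
  rw [Gf, db1_transp D hm0' (hP.perP m hm) (hP.pera m hm) (cutg_zero D hm0 g)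
    ((reg1_cutg D hg).of_le (by simp)), n2_transp, ← zpow_weight D (m := m) (δ := δ) x,
    mul_left_comm]
  rw [mult]
  gcongr
  refine (n2_rho_le D hm hE hP hg hs hc hCa hCc hcut hclose _).trans ?_
  rw [mul_assoc]
  gcongr
  exact hb _

theorem equiv_db1_Gf (hm : m₀ ≤ m) (hP : D.PerSeq L i₀ a N m₀ Lm am) (hg : Reg1 ∞ 0 g) :
    D.Equiv (m : ℤ) (mult δ m) ((Lm m).db1 (am m) 0 (Gf D δ m g)) := by
  have hm0 : 0 < m := by have := hP.two_le; omega
  have hm0' : (0 : ℤ) < m := by exact_mod_cast hm0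
  rw [Gf, db1_transp D hm0' (hP.perP m hm) (hP.pera m hm) (cutg_zero D hm0 g)
    ((reg1_cutg D hg).of_le (by simp))]
  exact D.equiv_transp (by exact_mod_cast hm0.ne') (mult_ne δ m) _

theorem slab_weight {δ : ℝ} {j : ℤ} {x : M} (hx : x ∈ D.slab j) :
    Real.exp (δ * D.f x) ≤ Real.exp |δ| * ew δ j := by
  rw [ew, ← Real.exp_add]
  apply Real.exp_le_exp.2
  have h1 := hx.1
  have h2 := hx.2
  have : δ * (D.f x - j) ≤ |δ| := by
    rcases abs_cases δ with ⟨h3, h4⟩ | ⟨h3, h4⟩ <;> rw [h3] <;> nlinarith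
  linarith

/-- the norm of a combination -/
theorem n1_comb_le {r : ℕ} {c : Fin (r + 1) → ℂ} (hc : ‖c‖ ≤ 1) (w : Fin (r + 1) → M → Fin 2 → EuclideanSpace ℂ ι)
    (x : M) : n1 D.h 0 (fun y k => ∑ i, c i • w i y k) x ≤ ∑ i, ‖c i‖ * n1 D.h 0 (w i) x := by
  refine (n1_sum_le D.herm.posDef 0 Finset.univ (fun i y k => c i • w i y k) x).trans ?_
  refine Finset.sum_le_sum fun i _ => le_of_eq ?_
  exact n1_smul D.herm.posDef 0 (fun _ => c i) (w i) x

theorem step {r : ℕ} {C0 C2 ε A : ℝ} (hm : m₀ ≤ m) (hE : L.IsHol a)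
    (hP : D.PerSeq L i₀ a N m₀ Lm am)
    (h0 : D.T0 0 (Lm m) (am m) (ew δ) C0) (h2 : D.T2m (Lm m) (am m) m (mult δ m) (ew δ) C2)
    (h1 : D.H1m (Lm m) (am m) m (mult δ m) r) (hC0 : 0 ≤ C0) (hC2 : 0 ≤ C2)
    (hε : 0 ≤ ε) (hA : 0 ≤ A) {g : Fin (r + 1) → M → Fin 2 → EuclideanSpace ℂ ι}
    (hg : ∀ i, Reg1 ∞ 0 (g i)) (hs : ∀ i, L.Sec1 (g i)) 
    (hb : ∀ i x, n1 D.h 0 (g i) x ≤ A * Real.exp (δ * D.f x))
    (hn : ∀ i x, n2 D.h 0 ((Lm m).db1 (am m) 0 (Gf D δ m (g i))) x ≤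
      ε * A * Real.exp (δ * D.f x)) :
    ∃ c : Fin (r + 1) → ℂ, ‖c‖ = 1 ∧ ∃ (v : Fin (r + 1) → M → Fin 2 → EuclideanSpace ℂ ι) (u : M → EuclideanSpace ℂ ι),
      Reg0 ∞ 0 u ∧ (Lm m).Sec u ∧ (∀ i, Reg1 ∞ 0 (v i)) ∧
      (∀ i j, D.p1 0 (v i) j ≤ C2 * (ε * A * Real.exp |δ|) * ew δ j) ∧
      (∀ x k, (Lm m).db0 (am m) 0 u x k = ∑ i, c i • (Gf D δ m (g i) x k - v i x k)) ∧
      ∀ j, D.p0 0 u j ≤
        C0 * ((r + 1) * (A * Real.exp |δ| + C2 * (ε * A * Real.exp |δ|))) * ew δ j := by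
  have hm0 : 0 < m := by have := hP.two_le; omega
  have hBn : 0 ≤ ε * A * Real.exp |δ| := by positivity
  have key : ∀ i, ∃ v : M → Fin 2 → (EuclideanSpace ℂ ι), Reg1 ∞ 0 v ∧ (Lm m).Sec1 v ∧
      D.Equiv (m : ℤ) (mult δ m) v ∧
      (∀ x, (Lm m).db1 (am m) 0 v x = (Lm m).db1 (am m) 0 (Gf D δ m (g i)) x) ∧
      ∀ j, D.p1 0 v j ≤ C2 * (ε * A * Real.exp |δ|) * ew δ j := by
    intro i
    exact h2 _ (reg2_db1 (Lm m) (hP.hol m hm).smooth (reg1_Gf D hm0 (hg i)))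
      (sec_db1 (Lm m) (am m) (sec1_Gf D hm hP (hs i))) (equiv_db1_Gf D hm hP (hg i)) _ hBn
      (prof_le_ew D (by positivity) (hn i))
  choose v hv1 hv2 hv3 hv4 hv5 using key
  obtain ⟨c, hc, u, hu1, hu2, hu3, hu4⟩ := h1 (fun i x => Gf D δ m (g i) x - v i x) (fun i => by
    refine ⟨?_, ?_, ?_, ?_⟩
    · exact reg1_iff_at.2 fun x => ((reg1_Gf D hm0 (hg i)).at x).sub ((hv1 i).at x)
    · intro x k
      change LB.act ((Lm m).P x) (Gf D δ m (g i) x k - v i x k) = Gf D δ m (g i) x k - v i x k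
      rw [act_sub, sec1_Gf D hm hP (hs i), hv2 i]
    · intro x
      change Gf D δ m (g i) (D.sh m x) - v i (D.sh m x) =
        mult δ m • (Gf D δ m (g i) x - v i x)
      rw [equiv_Gf D hm0, hv3 i, smul_sub]
    · intro x
      rw [db1_sub (Lm m) (am m) (((reg1_Gf D hm0 (hg i)).at x).of_le (by simp))
        (((hv1 i).at x).of_le (by simp)), hv4 i, sub_self])
  have hcn : 0 < ‖c‖ := norm_pos_iff.2 hc
  have hcn' : ((‖c‖ : ℝ) : ℂ) ≠ 0 := by exact_mod_cast hcn.ne'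
  set t : ℂ := ((‖c‖ : ℝ) : ℂ)⁻¹ with ht
  have hct : ‖fun i => t * c i‖ = 1 := by
    have : (fun i => t * c i) = t • c := rfl
    rw [this, norm_smul, ht, norm_inv, Complex.norm_real, norm_norm, inv_mul_cancel₀ hcn.ne']
  have hu1' : Reg0 ∞ 0 fun x => t • u x := reg0_iff_at.2 fun x => (hu1.at x).const_smul t
  have hu2' : (Lm m).Sec fun x => t • u x := fun x => by rw [act_smul, hu2 x]
  have hu3' : D.Equiv (m : ℤ) (mult δ m) fun x => t • u x := fun x => by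
    change t • u (D.sh m x) = mult δ m • t • u x
    rw [hu3 x, smul_comm]
  have hdb : ∀ x k, (Lm m).db0 (am m) 0 (fun x => t • u x) x k =
      ∑ i, (t * c i) • (Gf D δ m (g i) x k - v i x k) := by
    intro x k
    rw [db0_const_smul (Lm m) (am m) t ((hu1.at x).of_le (by simp)), hu4, Finset.smul_sum]
    refine Finset.sum_congr rfl fun i _ => ?_
    rw [mul_smul]
    rfl
  refine ⟨fun i => t * c i, hct, v, fun x => t • u x, hu1', hu2', hv1, hv5, hdb, ?_⟩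
  refine h0 _ hu1' hu2' (bdd_of_equiv D hm0 hu1' hu3') _ fun j => ?_
  have hw : 0 ≤ ew δ j := (Real.exp_pos _).le
  refine D.prof_le (by positivity) fun x hx => ?_
  have e1 : (Lm m).db0 (am m) 0 (fun x => t • u x) =
      fun y k => ∑ i, (t * c i) • (Gf D δ m (g i) y - v i y) k := by
    funext y k
    exact hdb y k
  rw [e1]
  refine (n1_comb_le D hct.le (fun i y => Gf D δ m (g i) y - v i y) x).trans ?_
  have e2 : ∀ i : Fin (r + 1), ‖t * c i‖ * n1 D.h 0 (fun y => Gf D δ m (g i) y - v i y) x ≤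
      (A * Real.exp |δ| + C2 * (ε * A * Real.exp |δ|)) * ew δ j := by
    intro i
    have h3 : ‖t * c i‖ ≤ 1 := (norm_le_pi_norm (fun i => t * c i) i).trans hct.le
    have h4 := n1_sub_le D.herm.posDef 0 (Gf D δ m (g i)) (v i) x
    have h5 : n1 D.h 0 (Gf D δ m (g i)) x ≤ A * Real.exp |δ| * ew δ j := by
      refine (n1_Gf_le D (hb i) x).trans ?_
      rw [mul_assoc]
      gcongr
      exact slab_weight D hx
    have h6 : n1 D.h 0 (v i) x ≤ C2 * (ε * A * Real.exp |δ|) * ew δ j :=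
      (D.le_prof (continuous_n1 D.herm (hv1 i)) hx).trans (hv5 i j)
    have h7 := n1_nonneg D.herm.posDef 0 (fun y => Gf D δ m (g i) y - v i y) x
    calc ‖t * c i‖ * n1 D.h 0 (fun y => Gf D δ m (g i) y - v i y) x
        ≤ 1 * n1 D.h 0 (fun y => Gf D δ m (g i) y - v i y) x := by gcongr
      _ ≤ _ := by rw [one_mul, add_mul]; exact h4.trans (add_le_add h5 h6)
  refine (Finset.sum_le_sum fun i _ => e2 i).trans (le_of_eq ?_)
  rw [Finset.sum_const, Finset.card_univ, Fintype.card_fin, nsmul_eq_mul]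
  push_cast
  ring

theorem T0_mono {C C' : ℝ} (h : C ≤ C') {L : LB M ι} {a : M → Fin 2 → ℂ}
    (h0 : D.T0 0 L a (ew δ) C) : D.T0 0 L a (ew δ) C' := by
  intro u hu hs hA B hB j
  have hw : 0 < ew δ j := Real.exp_pos _
  have h1 : 0 ≤ B * ew δ j :=
    (D.prof_nonneg (fun x => n1_nonneg D.herm.posDef _ _ x) j).trans (hB j)
  refine (h0 u hu hs hA B hB j).trans ?_
  rw [mul_assoc, mul_assoc]
  exact mul_le_mul_of_nonneg_right h h1

theorem T2m_mono {C C' : ℝ} (h : C ≤ C') {L : LB M ι} {a : M → Fin 2 → ℂ} {m : ℕ} {μ : ℂ}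
    (h0 : D.T2m L a m μ (ew δ) C) : D.T2m L a m μ (ew δ) C' := by
  intro r hr hs he B hB hb
  obtain ⟨v, h1, h2, h3, h4, h5⟩ := h0 r hr hs he B hB hb
  refine ⟨v, h1, h2, h3, h4, fun j => (h5 j).trans ?_⟩
  have hw : 0 < ew δ j := Real.exp_pos _
  gcongr

theorem abs_f_slab {j : ℤ} {x : M} (hx : x ∈ D.slab j) : |D.f x| ≤ |(j : ℝ)| + 1 := by
  have h1 := hx.1
  have h2 := hx.2
  rw [abs_le]
  have h3 := le_abs_self (j : ℝ)
  have h4 := neg_abs_le (j : ℝ)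
  constructor <;> linarith

/-- degree one: `dim H¹_δ(M, (L, a)) ≤ r` if `dim H¹(X_m, (L_m, a_m) ⊗ L_μ) ≤ r` for all large
`m`, `μ = e^{δ m}` -/
theorem t1_eventually {r : ℕ} (hE : D.EndTriv L i₀ a R N) (hN : 0 < N)
    (hP : D.PerSeq L i₀ a N m₀ Lm am) (hNF : D.NF)
    (h0 : ∃ C, ∀ᶠ m : ℕ in atTop, D.T0 0 (Lm m) (am m) (ew δ) C)
    (h2 : ∃ C, ∀ᶠ m : ℕ in atTop, D.T2m (Lm m) (am m) m (mult δ m) (ew δ) C)
    (h1 : ∀ᶠ m : ℕ in atTop, D.H1m (Lm m) (am m) m (mult δ m) r) : D.T1 L a δ r := by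
  intro g hg
  have hg1 : ∀ i, Reg1 ∞ 0 (g i) := fun i => (hg i).1
  have hs : ∀ i, L.Sec1 (g i) := fun i => (hg i).2.1
  have hc : ∀ i x, L.db1 a 0 (g i) x = 0 := fun i => (hg i).2.2.2
  choose A' hA' using fun i => (hg i).2.2.1
  set A0 : ℝ := ∑ i, |A' i| with hA0d
  have hA0 : 0 ≤ A0 := Finset.sum_nonneg fun i _ => abs_nonneg _
  have hgp : ∀ i j, D.p1 0 (g i) j ≤ A0 * ew δ j := fun i j => by
    have hw : 0 < ew δ j := Real.exp_pos _
    refine (hA' i j).trans ?_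
    gcongr
    exact (le_abs_self _).trans
      (Finset.single_le_sum (f := fun i => |A' i|) (fun i _ => abs_nonneg _) (Finset.mem_univ i))
  set A : ℝ := A0 * Real.exp |δ| with hAd
  have hA : 0 ≤ A := by positivity
  have hb : ∀ i x, n1 D.h 0 (g i) x ≤ A * Real.exp (δ * D.f x) := fun i =>
    weight_le D (continuous_n1 D.herm (hg1 i)) hA0 (hgp i)
  obtain ⟨Cc, hCc, hcut⟩ := exists_n1_cut D
  obtain ⟨Ca', hclose'⟩ := hP.close
  set Ca : ℝ := max Ca' 0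
  have hCa : 0 ≤ Ca := le_max_right _ _
  have hclose : ∀ m ≥ m₀, ∀ x, |D.f x| ≤ m / 2 →
      n1 D.h 0 (fun y => am m y - a y) x ≤ Ca * Real.exp (-(N * m / 2)) := by
    intro m hm x hx
    refine (hclose' m hm x hx).trans ?_
    gcongr
    exact le_max_left _ _
  obtain ⟨C0', h0⟩ := h0
  obtain ⟨C2', h2⟩ := h2
  set C0 : ℝ := max C0' 0
  set C2 : ℝ := max C2' 0
  have hC0 : 0 ≤ C0 := le_max_right _ _
  have hC2 : 0 ≤ C2 := le_max_right _ _
  set ε : ℕ → ℝ := fun m => Cc / m + Ca * Real.exp (-(N * m / 2)) with hεd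
  have hε : ∀ m, 0 ≤ ε m := fun m => by positivity
  have hε1 : Tendsto ε atTop (𝓝 0) := by
    have e1 : Tendsto (fun m : ℕ => Cc / (m : ℝ)) atTop (𝓝 0) :=
      tendsto_const_div_atTop_nhds_zero_nat Cc
    have e2 : Tendsto (fun m : ℕ => Ca * Real.exp (-(N * m / 2))) atTop (𝓝 (Ca * 0)) := by
      apply Tendsto.const_mul
      apply Real.tendsto_exp_neg_atTop_nhds_zero.comp
      have : Tendsto (fun m : ℕ => (N / 2) * (m : ℝ)) atTop atTop :=
        tendsto_natCast_atTop_atTop.const_mul_atTop (by positivity)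
      refine this.congr fun m => by ring
    simpa using e1.add e2
  have hε2 : ∀ m, 1 ≤ m → ε m ≤ Cc + Ca := by
    intro m hm
    have hm' : (1 : ℝ) ≤ m := by exact_mod_cast hm
    have e1 : Cc / m ≤ Cc := div_le_self hCc hm'
    have e2 : Ca * Real.exp (-(N * m / 2)) ≤ Ca := by
      refine mul_le_of_le_one_right hCa (Real.exp_le_one_iff.2 ?_)
      have : 0 ≤ N * m / 2 := by positivity
      linarith
    exact add_le_add e1 e2
  -- the approximate solutions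
  set K : ℝ := C0 * ((r + 1) * (A * Real.exp |δ| + C2 * ((Cc + Ca) * A * Real.exp |δ|))) with hK
  obtain ⟨m₁', hm₁'⟩ := eventually_atTop.1 ((h0.and h2).and (h1.and (eventually_ge_atTop m₀)))
  set m₁ : ℕ := max m₁' 1
  have key : ∀ ν : ℕ, ∃ c : Fin (r + 1) → ℂ, ‖c‖ = 1 ∧
      ∃ (v : Fin (r + 1) → M → Fin 2 → EuclideanSpace ℂ ι) (u : M → EuclideanSpace ℂ ι),
      Reg0 ∞ 0 u ∧ (Lm (m₁ + ν)).Sec u ∧ (∀ i, Reg1 ∞ 0 (v i)) ∧
      (∀ i j, D.p1 0 (v i) j ≤ C2 * (ε (m₁ + ν) * A * Real.exp |δ|) * ew δ j) ∧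
      (∀ x k, (Lm (m₁ + ν)).db0 (am (m₁ + ν)) 0 u x k =
        ∑ i, c i • (Gf D δ (m₁ + ν) (g i) x k - v i x k)) ∧
      ∀ j, D.p0 0 u j ≤ K * ew δ j := by
    intro ν
    obtain ⟨⟨q0, q2⟩, q1, q3⟩ := hm₁' (m₁ + ν) ((le_max_left _ _).trans (Nat.le_add_right _ _))
    obtain ⟨c, hc1, v, u, k1, k2, k3, k4, k5, k6⟩ := step D q3 hE.hol hP
      (T0_mono D (le_max_left _ _) q0) (T2m_mono D (le_max_left _ _) q2) q1 hC0 hC2
      (hε (m₁ + ν)) hA hg1 hs hb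
      (fun i => n2_db1_Gf_le D q3 hE.hol hP (hg1 i) (hs i) (hc i) hCa hCc hcut hclose (hb i))
    refine ⟨c, hc1, v, u, k1, k2, k3, k4, k5, fun j => (k6 j).trans ?_⟩
    have hw : 0 < ew δ j := Real.exp_pos _
    rw [hK]
    have := hε2 (m₁ + ν) ((le_max_right _ _).trans (Nat.le_add_right _ _))
    gcongr
  have hm₁ge : ∀ ν, m₀ ≤ m₁ + ν := fun ν =>
    (hm₁' (m₁ + ν) ((le_max_left _ _).trans (Nat.le_add_right _ _))).2.2
  choose c hc1 v u hu1 hu2 hv1 hv2 hdb hu3 using key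
  obtain ⟨c', hc', φ, hφ, hlim⟩ := (isCompact_sphere (0 : Fin (r + 1) → ℂ) 1).tendsto_subseq
    (x := c) (fun ν => by simp [hc1 ν])
  have hc'1 : ‖c'‖ = 1 := by simpa using hc'
  have hc'0 : c' ≠ 0 := by
    rintro rfl
    simp at hc'1
  have hmm : Tendsto (fun ν => ((m₁ + φ ν : ℕ) : ℝ)) atTop atTop :=
    tendsto_natCast_atTop_atTop.comp
      (tendsto_atTop_mono (fun ν => Nat.le_add_left (φ ν) m₁) hφ.tendsto_atTop)
  have hmm' : ∀ t : ℝ, ∀ᶠ ν in atTop, t < ((m₁ + φ ν : ℕ) : ℝ) := fun t =>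
    hmm.eventually (eventually_gt_atTop t)
  have hεφ : Tendsto (fun ν => ε (m₁ + φ ν)) atTop (𝓝 0) :=
    hε1.comp (tendsto_atTop_mono (fun ν => Nat.le_add_left (φ ν) m₁) hφ.tendsto_atTop)
  set g' : M → Fin 2 → EuclideanSpace ℂ ι := fun x k => ∑ i, c' i • g i x k with hg'
  have q1 : D.TendL (fun ν => Lm (m₁ + φ ν)) L := by
    intro j
    filter_upwards [hmm' (2 * (|(j : ℝ)| + 1))] with ν hν x hx
    refine P_eq D (m := ((m₁ + φ ν : ℕ) : ℤ)) ?_ (hP.perP _ (hm₁ge _)) ?_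
    · have : 0 < m₁ := (Nat.one_pos).trans_le (le_max_right _ _)
      omega
    · refine (abs_f_slab D hx).trans_lt ?_
      rw [Int.cast_natCast]
      linarith
  have q2 : D.Tend1 0 (fun ν => am (m₁ + φ ν)) a := by
    intro j
    have e2 : Tendsto (fun ν => ε (m₁ + φ ν)) atTop (𝓝 0) := hεφ
    refine squeeze_zero' (Eventually.of_forall fun ν =>
      D.prof_nonneg (fun x => n1_nonneg D.herm.posDef _ _ x) j) ?_ e2
    filter_upwards [hmm' (2 * (|(j : ℝ)| + 1))] with ν hν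
    refine D.prof_le (hε _) fun x hx => ?_
    have e3 := hclose (m₁ + φ ν) (hm₁ge _) x ((abs_f_slab D hx).trans (by linarith))
    refine e3.trans ?_
    have : 0 ≤ Cc / ((m₁ + φ ν : ℕ) : ℝ) := by positivity
    simp only [hεd]
    linarith
  have q3 : Reg1 ∞ 0 g' := by
    refine reg1_iff_at.2 fun x => ?_
    have : g' = fun y => ∑ i, (fun k => c' i • g i y k) := by
      funext y k
      simp only [hg', Finset.sum_apply]
    rw [this]
    exact At1.sum (s := fun i y k => c' i • g i y k) fun i _ => ((hg1 i).at x).const_smul (c' i)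
  have q4 : L.Sec1 g' := by
    intro x k
    change LB.act (L.P x) (∑ i, c' i • g i x k) = ∑ i, c' i • g i x k
    rw [act_sum]
    exact Finset.sum_congr rfl fun i _ => by rw [act_smul, hs i x k]
  have q5 : ∀ x, L.db1 a 0 g' x = 0 := by
    intro x
    rw [hg', db1_sum L a Finset.univ c' fun i _ => ((hg1 i).at x).of_le (by simp)]
    exact Finset.sum_eq_zero fun i _ => by rw [hc i x, smul_zero]
  have q6 : D.Tend1 0 (fun ν => (Lm (m₁ + φ ν)).db0 (am (m₁ + φ ν)) 0 (u (φ ν))) g' := by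
    intro j
    have hw : 0 < ew δ j := Real.exp_pos _
    have e1 : Tendsto (fun ν => ∑ i, ‖c (φ ν) i - c' i‖ * (A0 * ew δ j) +
        ((r + 1) * C2 * (A * Real.exp |δ|) * ew δ j) * ε (m₁ + φ ν)) atTop (𝓝 0) := by
      have e2 : Tendsto (fun ν => ∑ i, ‖c (φ ν) i - c' i‖ * (A0 * ew δ j)) atTop
          (𝓝 (∑ i : Fin (r + 1), 0 * (A0 * ew δ j))) := by
        refine tendsto_finsetSum _ fun i _ => Tendsto.mul_const _ ?_
        have e3 : Tendsto (fun ν => c (φ ν) i) atTop (𝓝 (c' i)) :=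
          (tendsto_pi_nhds.1 hlim i)
        have e4 := (e3.sub_const (c' i)).norm
        simpa using e4
      have e5 := e2.add (hεφ.const_mul ((r + 1) * C2 * (A * Real.exp |δ|) * ew δ j))
      simpa using e5
    refine squeeze_zero' (Eventually.of_forall fun ν =>
      D.prof_nonneg (fun x => n1_nonneg D.herm.posDef _ _ x) j) ?_ e1
    filter_upwards [hmm' (8 * (|(j : ℝ)| + 1))] with ν hν
    have hεν := hε (m₁ + φ ν)
    refine D.prof_le (add_nonneg (Finset.sum_nonneg fun i _ => by positivity) (by positivity))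
      fun x hx => ?_
    have hm1 : 0 < m₁ + φ ν := by
      have : 0 < m₁ := (Nat.one_pos).trans_le (le_max_right _ _)
      omega
    have hfx : |D.f x| ≤ ((m₁ + φ ν : ℕ) : ℝ) / 8 := by
      have := abs_f_slab D hx
      linarith
    have e2 : ∀ k, (Lm (m₁ + φ ν)).db0 (am (m₁ + φ ν)) 0 (u (φ ν)) x k - g' x k =
        ∑ i, ((c (φ ν) i - c' i) • g i x k - c (φ ν) i • v (φ ν) i x k) := by
      intro k
      rw [hdb, hg', ← Finset.sum_sub_distrib]
      refine Finset.sum_congr rfl fun i _ => ?_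
      rw [Gf_eq D hm1 hfx, smul_sub, sub_smul]
      abel
    have e3 : n1 D.h 0 (fun x => (Lm (m₁ + φ ν)).db0 (am (m₁ + φ ν)) 0 (u (φ ν)) x - g' x) x =
        n1 D.h 0 (fun x k => ∑ i, ((c (φ ν) i - c' i) • g i x k - c (φ ν) i • v (φ ν) i x k)) x := by
      rw [n1_eq, n1_eq]
      congr 1
      funext k
      exact e2 k
    rw [e3]
    refine (n1_sum_le D.herm.posDef 0 Finset.univ
      (fun i x k => (c (φ ν) i - c' i) • g i x k - c (φ ν) i • v (φ ν) i x k) x).trans ?_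
    have e4 : ∀ i, n1 D.h 0
        (fun x k => (c (φ ν) i - c' i) • g i x k - c (φ ν) i • v (φ ν) i x k) x ≤
        ‖c (φ ν) i - c' i‖ * (A0 * ew δ j) +
          C2 * (ε (m₁ + φ ν) * A * Real.exp |δ|) * ew δ j := by
      intro i
      refine (n1_sub_le D.herm.posDef 0 (fun x k => (c (φ ν) i - c' i) • g i x k)
        (fun x k => c (φ ν) i • v (φ ν) i x k) x).trans ?_
      have e5 := n1_smul D.herm.posDef 0 (fun _ => c (φ ν) i - c' i) (g i) x
      have e6 := n1_smul D.herm.posDef 0 (fun _ => c (φ ν) i) (v (φ ν) i) x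
      rw [e5, e6]
      have e7 : n1 D.h 0 (g i) x ≤ A0 * ew δ j :=
        (D.le_prof (continuous_n1 D.herm (hg1 i)) hx).trans (hgp i j)
      have e8 : n1 D.h 0 (v (φ ν) i) x ≤ C2 * (ε (m₁ + φ ν) * A * Real.exp |δ|) * ew δ j :=
        (D.le_prof (continuous_n1 D.herm (hv1 (φ ν) i)) hx).trans (hv2 (φ ν) i j)
      have e9 : ‖c (φ ν) i‖ ≤ 1 := (norm_le_pi_norm (c (φ ν)) i).trans (hc1 (φ ν)).le
      have e10 := n1_nonneg D.herm.posDef 0 (v (φ ν) i) x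
      have e11 : ‖c (φ ν) i‖ * n1 D.h 0 (v (φ ν) i) x ≤
          C2 * (ε (m₁ + φ ν) * A * Real.exp |δ|) * ew δ j :=
        (mul_le_of_le_one_left e10 e9).trans e8
      gcongr
    refine (Finset.sum_le_sum fun i _ => e4 i).trans (le_of_eq ?_)
    rw [Finset.sum_add_distrib, Finset.sum_const, Finset.card_univ, Fintype.card_fin, nsmul_eq_mul]
    push_cast
    ring
  obtain ⟨φ', hφ', u', hu'1, hu'2, hu'3, hu'4⟩ := hNF ι 0 L a (fun ν => Lm (m₁ + φ ν))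
    (fun ν => am (m₁ + φ ν)) g' (fun ν => u (φ ν)) hE.hol (fun ν => hP.hol _ (hm₁ge _)) q1 q2 q3
    q4 q5 (fun ν => hu1 _) (fun ν => hu2 _) (fun j => ⟨K * ew δ j, fun ν => hu3 _ j⟩) q6
  refine ⟨c', hc'0, u', hu'1, hu'2, ⟨K, fun j => ?_⟩, hu'3⟩
  have hw : 0 < ew δ j := Real.exp_pos _
  have hKn : 0 ≤ K := by positivity
  refine D.prof_le (by positivity) fun x hx => ?_
  have e1 : Tendsto (fun ν => K * ew δ j + D.p0 0 (fun x => u (φ (φ' ν)) x - u' x) j) atTop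
      (𝓝 (K * ew δ j)) := by
    have := (hu'4 j).const_add (K * ew δ j)
    simpa using this
  refine ge_of_tendsto e1 (Eventually.of_forall fun ν => ?_)
  have e2 := n0_sub_le D.herm.posDef 0 (u (φ (φ' ν))) (fun x => u (φ (φ' ν)) x - u' x) x
  have e3 : n0 D.h 0 (fun y => u (φ (φ' ν)) y - (u (φ (φ' ν)) y - u' y)) x = n0 D.h 0 u' x := by
    congr 1
    funext y
    abel
  rw [e3] at e2
  refine e2.trans (add_le_add ?_ ?_)
  · exact (D.le_prof (continuous_n0 D.herm (hu1 _)) hx).trans (hu3 _ j)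
  · refine D.le_prof (n := n0 D.h 0 fun x => u (φ (φ' ν)) x - u' x)
      (continuous_n0 (n := ∞) (κ := 0) D.herm ?_) hx
    exact reg0_iff_at.2 fun x => ((hu1 _).at x).sub (hu'1.at x)

/-- XA-T1 in the form of `H877/Iface.lean` -/
theorem t1 {r : ℕ} (hE : D.EndTriv L i₀ a R N) (hN : 0 < N)
    (hP : D.PerSeq L i₀ a N m₀ Lm am) (hNF : D.NF)
    (h0 : ∃ C, ∀ m ≥ m₀, D.T0 0 (Lm m) (am m) (ew δ) C)
    (h2 : ∃ C, ∀ m ≥ m₀, D.T2m (Lm m) (am m) m ((Real.exp (δ * m) : ℝ) : ℂ) (ew δ) C)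
    (h1 : ∀ m ≥ m₀, D.H1m (Lm m) (am m) m ((Real.exp (δ * m) : ℝ) : ℂ) r) :
    D.T1 L a δ r := by
  obtain ⟨C0, h0⟩ := h0
  obtain ⟨C2, h2⟩ := h2
  exact t1_eventually D hE hN hP hNF ⟨C0, eventually_atTop.2 ⟨m₀, h0⟩⟩
    ⟨C2, eventually_atTop.2 ⟨m₀, h2⟩⟩ (eventually_atTop.2 ⟨m₀, h1⟩)

end

end Vale.Agent.P267.H87
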