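import Vale.Agent.P267.H87.LBc
import Vale.Agent.P267.H87.Norm
import Vale.Agent.P267.H877.Iface
import Vale.Agent.P267.H399.Calc3

/-!
# P267 / H87: windows, transplantation, cut-offs (helper87)
-/

set_option linter.unusedVariables false
set_option linter.unusedSectionVars false

open scoped Manifold ContDiff ComplexConjugate Matrix ComplexOrder Topology
open MeasureTheory Set Filter

noncomputable section

namespace Vale.Agent.P267.H87

open FL XT

variable {M : Type} [TopologicalSpace M] [ChartedSpace C2 M] (D : XTData M)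
variable {ι : Type} [Fintype ι] [DecidableEq ι]


/-! ### windows -/

theorem win_shk {m : ℤ} (hm : m ≠ 0) (k : ℤ) (x : M) : D.win m (D.sh (m * k) x) = D.win m x + k := by
  have : (m : ℝ) ≠ 0 := by exact_mod_cast hm
  rw [XTData.win, D.f_sh, add_div]
  push_cast
  rw [mul_div_cancel_left₀ _ this, round_add_intCast, XTData.win]

theorem mv_shk {m : ℤ} (hm : m ≠ 0) (k : ℤ) (x : M) : D.mv m (D.sh (m * k) x) = D.mv m x := by
  rw [XTData.mv, win_shk D hm, ← D.sh_add, XTData.mv]
  congr 1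
  ring

theorem win_mv {m : ℤ} (hm : m ≠ 0) (x : M) : D.win m (D.mv m x) = 0 := by
  have h := win_shk D hm (-D.win m x) x
  rw [mul_neg] at h
  rw [XTData.mv, h, add_neg_cancel]

theorem mv_mv {m : ℤ} (hm : m ≠ 0) (x : M) : D.mv m (D.mv m x) = D.mv m x := by
  rw [XTData.mv, win_mv D hm]
  simp

theorem sh_mv (m : ℤ) (x : M) : D.sh (m * D.win m x) (D.mv m x) = x := by
  rw [XTData.mv]
  simp

theorem equiv_shk {V : Type*} [AddCommGroup V] [Module ℂ V] {m : ℤ} {μ : ℂ} (hμ : μ ≠ 0)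
    {u : M → V} (hu : D.Equiv m μ u) (k : ℤ) (x : M) : u (D.sh (m * k) x) = μ ^ k • u x := by
  revert k
  apply XTData.sh_induction
  · simp
  · intro k hk
    have : m * (k + 1) = m + m * k := by ring
    rw [this, D.sh_add, hu, hk, ← mul_smul, zpow_add₀ hμ, zpow_one, mul_comm]
  · intro k hk
    have h1 := hu (D.sh (m * (k - 1)) x)
    rw [← D.sh_add, show m + m * (k - 1) = m * k by ring, hk] at h1
    have h2 : μ ^ k = μ * μ ^ (k - 1) := by
      rw [← zpow_one_add₀ hμ]; ring_nf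
    rw [h2, mul_smul] at h1
    have := congrArg (fun v => μ⁻¹ • v) h1
    simp only [smul_smul, ← mul_assoc, inv_mul_cancel₀ hμ, one_mul, one_smul] at this
    exact this.symm

theorem inv_shk {Y : Type*} {m : ℤ} {u : M → Y} (hu : ∀ x, u (D.sh m x) = u x) (k : ℤ) (x : M) :
    u (D.sh (m * k) x) = u x := by
  revert k
  apply XTData.sh_induction
  · simp
  · intro k hk
    have : m * (k + 1) = m + m * k := by ring
    rw [this, D.sh_add, hu, hk]
  · intro k hk
    have h1 := hu (D.sh (m * (k - 1)) x)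
    rw [← D.sh_add, show m + m * (k - 1) = m * k by ring, hk] at h1
    exact h1.symm

theorem equiv_mv {V : Type*} [AddCommGroup V] [Module ℂ V] {m : ℤ} {μ : ℂ} (hμ : μ ≠ 0)
    {u : M → V} (hu : D.Equiv m μ u) (x : M) : u x = μ ^ D.win m x • u (D.mv m x) := by
  rw [← equiv_shk D hμ hu, sh_mv]

theorem inv_mv {Y : Type*} {m : ℤ} {u : M → Y} (hu : ∀ x, u (D.sh m x) = u x) (x : M) :
    u x = u (D.mv m x) := by
  conv_lhs => rw [← sh_mv D m x, inv_shk D hu]

theorem transp_eq_smul {V : Type*} [AddCommGroup V] [Module ℂ V] (m : ℤ) (μ : ℂ) (u : M → V)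
    (x : M) : D.transp m μ u x = (μ ^ D.win m x) • u (D.mv m x) := rfl

variable [IsManifold 𝓘(ℂ, C2) ω M]

theorem continuous_f : Continuous D.f := by
  have h := D.f_smooth.continuous
  exact Complex.continuous_re.comp h

/-- near each point, the transplanted object is a multiple of a translate -/
theorem transp_eventually {V : Type*} [AddCommGroup V] [Module ℂ V] {m : ℤ} (hm : 0 < m) (μ : ℂ)
    {A : M → V} (hA : ∀ x, (m : ℝ) / 4 ≤ |D.f x| → A x = 0) (x : M) :
    ∀ᶠ y in 𝓝 x, D.transp m μ A y = (μ ^ D.win m x) • A (D.sh (-(m * D.win m x)) y) := by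
  have hm' : (0 : ℝ) < m := by exact_mod_cast hm
  have hc : ∀ᶠ y in 𝓝 x, |D.f y - D.f x| < m / 8 := by
    have : ContinuousAt (fun y => |D.f y - D.f x|) x :=
      ((continuous_f D).continuousAt.sub continuousAt_const).abs
    have h0 : |D.f x - D.f x| < m / 8 := by simpa using hm'
    exact this.eventually (gt_mem_nhds h0)
  filter_upwards [hc] with y hy
  by_cases hk : D.win m y = D.win m x
  · rw [transp_eq_smul, XTData.mv, hk]
  · set k := D.win m x with hkd
    set k' := D.win m y with hkd'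
    have hx : |D.f x - m * k| ≤ m / 2 := by
      have := D.abs_f_mv hm x
      rw [XTData.mv, D.f_sh] at this
      push_cast at this
      rwa [← sub_eq_add_neg] at this
    have hy' : |D.f y - m * k'| ≤ m / 2 := by
      have := D.abs_f_mv hm y
      rw [XTData.mv, D.f_sh] at this
      push_cast at this
      rwa [← sub_eq_add_neg] at this
    have hkk : (m : ℝ) ≤ |(m : ℝ) * k - m * k'| := by
      rw [← mul_sub, abs_mul, abs_of_pos hm']
      have : (1 : ℝ) ≤ |(k : ℝ) - k'| := by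
        have h2 : (1 : ℤ) ≤ |k - k'| := Int.one_le_abs (sub_ne_zero.2 (Ne.symm hk))
        exact_mod_cast h2
      nlinarith
    have h1 : (m : ℝ) / 4 ≤ |D.f y - m * k'| := by
      have e : (m : ℝ) * k - m * k' = (D.f y - m * k') - (D.f y - D.f x) - (D.f x - m * k) := by
        ring
      have := abs_sub (D.f y - m * k' - (D.f y - D.f x)) (D.f x - m * k)
      have h3 := abs_sub (D.f y - m * k') (D.f y - D.f x)
      rw [← e] at this
      linarith
    have h2 : (m : ℝ) / 4 ≤ |D.f y - m * k| := by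
      have e : (m : ℝ) * k - m * k' = (D.f y - m * k') - (D.f y - m * k) := by
        ring
      have := abs_sub (D.f y - m * k') (D.f y - m * k)
      rw [← e] at this
      linarith
    rw [transp_eq_smul, ← hkd', hA, hA, smul_zero, smul_zero]
    · rw [D.f_sh]; push_cast; rwa [← sub_eq_add_neg]
    · rw [XTData.mv, ← hkd', D.f_sh]; push_cast; rwa [← sub_eq_add_neg]

section transp

variable {m : ℤ} {μ : ℂ}

theorem reg1_transp {V : Type*} [NormedAddCommGroup V] [NormedSpace ℂ V] (hm : 0 < m) (μ : ℂ)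
    {A : M → Fin 2 → V} (hA : ∀ x, (m : ℝ) / 4 ≤ |D.f x| → A x = 0) {n : WithTop ℕ∞} {κ : ℤ}
    (hr : Reg1 n κ A) : Reg1 n κ (D.transp m μ A) := by
  rw [reg1_iff_at]
  intro x
  have h1 : At1 n κ (fun y => A (D.sh (-(m * D.win m x)) y)) x :=
    ((D.chartMap_sh _).reg1_comp hr).at x
  exact (h1.const_smul (μ ^ D.win m x)).congr (transp_eventually D hm μ hA x)

theorem dbar1_transp {V : Type*} [NormedAddCommGroup V] [NormedSpace ℂ V] (hm : 0 < m) (μ : ℂ)
    {A : M → Fin 2 → V} (hA : ∀ x, (m : ℝ) / 4 ≤ |D.f x| → A x = 0) {κ : ℤ}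
    (hr : Reg1 1 κ A) (x : M) :
    dbar1 κ (D.transp m μ A) x = μ ^ D.win m x • dbar1 κ A (D.mv m x) := by
  have h1 : At1 1 κ (fun y => A (D.sh (-(m * D.win m x)) y)) x :=
    ((D.chartMap_sh _).reg1_comp hr).at x
  have h2 : D.transp m μ A =ᶠ[𝓝 x] fun y i => (μ ^ D.win m x) • A (D.sh (-(m * D.win m x)) y) i :=
    transp_eventually D hm μ hA x
  rw [dbar1_congr h2, dbar1_const_smul _ h1, (D.chartMap_sh _).dbar1_comp]
  rfl

theorem n1_transp {V : Type*} [NormedAddCommGroup V] [InnerProductSpace ℂ V] (m : ℤ) (μ : ℂ)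
    (A : M → Fin 2 → V) (κ : ℤ) (x : M) :
    n1 D.h κ (D.transp m μ A) x = ‖μ‖ ^ D.win m x * n1 D.h κ A (D.mv m x) := by
  have h : n1 D.h κ (D.transp m μ A) x =
      n1 D.h κ (fun y => (μ ^ D.win m x) • A (D.sh (-(m * D.win m x)) y)) x := by
    simp only [n1_eq]
    rfl
  rw [h]
  have h2 := n1_smul D.herm.posDef κ (fun _ => μ ^ D.win m x)
    (fun y => A (D.sh (-(m * D.win m x)) y)) x
  rw [norm_zpow, D.n1_comp_sh] at h2
  exact h2

theorem n2_transp {V : Type*} [NormedAddCommGroup V] [InnerProductSpace ℂ V] (m : ℤ) (μ : ℂ)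
    (A : M → V) (κ : ℤ) (x : M) :
    n2 D.h κ (D.transp m μ A) x = ‖μ‖ ^ D.win m x * n2 D.h κ A (D.mv m x) := by
  have h : n2 D.h κ (D.transp m μ A) x =
      n2 D.h κ (fun y => (μ ^ D.win m x) • A (D.sh (-(m * D.win m x)) y)) x := by
    simp only [n2_eq]
    rfl
  rw [h]
  have h2 := n2_smul (h := D.h) κ (fun _ => μ ^ D.win m x)
    (fun y => A (D.sh (-(m * D.win m x)) y)) x
  rw [norm_zpow, D.n2_comp_sh] at h2
  exact h2

/-- weights: a pointwise bound on the central window gives a bound everywhere -/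
theorem zpow_weight {m : ℕ} {δ : ℝ} (x : M) :
    ‖((Real.exp (δ * m) : ℝ) : ℂ)‖ ^ D.win (m : ℤ) x * Real.exp (δ * D.f (D.mv (m : ℤ) x)) =
      Real.exp (δ * D.f x) := by
  rw [Complex.norm_real, Real.norm_of_nonneg (Real.exp_pos _).le, ← Real.rpow_intCast,
    ← Real.exp_mul, ← Real.exp_add, XTData.mv, D.f_sh]
  congr 1
  push_cast
  ring

variable {L Lp : LB M ι} {a ap : M → Fin 2 → ℂ}

/-- sections on the periodic bundle -/
theorem sec1_transp (hm : 0 < m) (hP : ∀ x, Lp.P x = L.P (D.mv m x)) {A : M → Fin 2 → EuclideanSpace ℂ ι}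
    (hA : L.Sec1 A) : Lp.Sec1 (D.transp m μ A) := by
  intro x i
  rw [hP, transp_eq_smul, Pi.smul_apply, act_smul, hA]

theorem P_mv (hm : 0 < m) (hP : ∀ x, Lp.P x = L.P (D.mv m x)) (x : M) :
    Lp.P (D.mv m x) = Lp.P x := by
  rw [hP, hP, mv_mv D hm.ne']

theorem P_eq (hm : 0 < m) (hP : ∀ x, Lp.P x = L.P (D.mv m x)) {x : M} (hx : |D.f x| < m / 2) :
    Lp.P x = L.P x := by
  rw [hP, D.mv_eq_self hm hx]

theorem db1_transp (hm : 0 < m) (hP : ∀ x, Lp.P x = L.P (D.mv m x))
    (ha : ∀ x, ap (D.sh m x) = ap x) {A : M → Fin 2 → EuclideanSpace ℂ ι}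
    (hA : ∀ x, (m : ℝ) / 4 ≤ |D.f x| → A x = 0) {κ : ℤ} (hr : Reg1 1 κ A) :
    Lp.db1 ap κ (D.transp m μ A) = D.transp m μ (Lp.db1 ap κ A) := by
  funext x
  rw [LB.db1, dbar1_transp D hm μ hA hr, transp_eq_smul, transp_eq_smul, LB.db1, P_mv D hm hP,
    act_smul, inv_mv D ha x, smul_add, smul_sub, Pi.smul_apply, Pi.smul_apply,
    smul_comm (ap (D.mv m x) 0), smul_comm (ap (D.mv m x) 1)]

end transp

end Vale.Agent.P267.H87
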