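import Vale.Agent.P267.H87.Cut

/-!
# P267 / H87: the cut-off functions `χ_m = ψ (f/m)` and the transplanted forms (helper87)
-/

set_option linter.unusedVariables false
set_option linter.unusedSectionVars false

open scoped Manifold ContDiff ComplexConjugate Matrix ComplexOrder Topology
open MeasureTheory Set Filter

noncomputable section

namespace Vale.Agent.P267.H87

open FL XT

/-! ### the profile `ψ` -/

/-- `1` on `[-1/8,1/8]`, `0` outside `(-1/4,1/4)` -/
def bump : ContDiffBump (0 : ℝ) := ⟨1 / 8, 1 / 4, by norm_num, by norm_num⟩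

theorem bump_one {t : ℝ} (ht : |t| ≤ 1 / 8) : bump t = 1 :=
  bump.one_of_mem_closedBall (by
    rw [Metric.mem_closedBall, dist_zero_right, Real.norm_eq_abs]; exact ht)

theorem bump_zero {t : ℝ} (ht : 1 / 4 ≤ |t|) : bump t = 0 :=
  bump.zero_of_le_dist (by rw [dist_zero_right, Real.norm_eq_abs]; exact ht)

theorem bump_smooth : ContDiff ℝ ∞ bump := bump.contDiff

theorem exists_deriv_bump : ∃ C, 0 ≤ C ∧ ∀ t, |deriv bump t| ≤ C := by
  have h1 : Continuous (deriv bump) := bump_smooth.continuous_deriv (by simp)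
  have h2 : HasCompactSupport (deriv bump) := bump.hasCompactSupport.deriv
  obtain ⟨C, hC⟩ := h2.exists_bound_of_continuous h1
  exact ⟨C, (norm_nonneg _).trans (hC 0), hC⟩

/-! ### `∂̄` of a real function of a real function -/

section

variable {X : Type*} [TopologicalSpace X] [ChartedSpace C2 X] [IsManifold 𝓘(ℂ, C2) ω X]

theorem dbar0_real_comp {f : X → ℝ} {x : X} (hf : At0 1 0 (fun y => (f y : ℂ)) x) {ψ : ℝ → ℝ}
    (hψ : DifferentiableAt ℝ ψ (f x)) (i : Fin 2) :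
    dbar0 0 (fun y => (ψ (f y) : ℂ)) x i =
      ((deriv ψ (f x) : ℝ) : ℂ) • dbar0 0 (fun y => (f y : ℂ)) x i := by
  set e := chartAt C2 x
  have hF : DifferentiableAt ℝ (fun z => (f (e.symm z) : ℂ)) (e x) := by
    have := hf.diff le_rfl
    rw [LB.loc0_zero] at this
    exact this
  have hG : DifferentiableAt ℝ (fun z => f (e.symm z)) (e x) := by
    have := Complex.reCLM.differentiableAt.comp (e x) hF
    exact this
  have h1 : fderiv ℝ (fun z => (f (e.symm z) : ℂ)) (e x) =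
      Complex.ofRealCLM.comp (fderiv ℝ (fun z => f (e.symm z)) (e x)) :=
    (Complex.ofRealCLM.hasFDerivAt.comp (e x) hG.hasFDerivAt).fderiv
  have hx : e.symm (e x) = x := e.left_inv (mem_chart_source C2 x)
  have hψ' : HasDerivAt ψ (deriv ψ (f x)) ((fun z => f (e.symm z)) (e x)) := by
    simp only [hx]
    exact hψ.hasDerivAt
  have h2 : fderiv ℝ (fun z => (ψ (f (e.symm z)) : ℂ)) (e x) =
      Complex.ofRealCLM.comp (deriv ψ (f x) • fderiv ℝ (fun z => f (e.symm z)) (e x)) := by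
    have h3 := hψ'.comp_hasFDerivAt (e x) hG.hasFDerivAt
    exact (Complex.ofRealCLM.hasFDerivAt.comp (e x) h3).fderiv
  rw [dbar0, dbar0, LB.loc0_zero, LB.loc0_zero]
  change dzb i (fun z => (ψ (f (e.symm z)) : ℂ)) (e x) =
    ((deriv ψ (f x) : ℝ) : ℂ) • dzb i (fun z => (f (e.symm z) : ℂ)) (e x)
  rw [dzb, dzb, h1, h2]
  simp only [ContinuousLinearMap.comp_apply, smul_apply,
    Complex.ofRealCLM_apply, smul_eq_mul, Complex.ofReal_mul]
  ring

end

variable {M : Type} [TopologicalSpace M] [ChartedSpace C2 M] (D : XTData M)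
variable {ι : Type} [Fintype ι] [DecidableEq ι]


/-! ### the cut-off functions -/

/-- the cut-off function: `1` for `|f| ≤ m/8`, `0` for `|f| ≥ m/4` -/
def cut (m : ℕ) (x : M) : ℂ := ((bump (D.f x / m) : ℝ) : ℂ)

theorem cut_one {m : ℕ} (hm : 0 < m) {x : M} (hx : |D.f x| ≤ m / 8) : cut D m x = 1 := by
  have hm' : (0 : ℝ) < m := by exact_mod_cast hm
  rw [cut, bump_one, Complex.ofReal_one]
  rw [abs_div, abs_of_pos hm', div_le_iff₀ hm']
  linarith

theorem cut_zero {m : ℕ} (hm : 0 < m) {x : M} (hx : (m : ℝ) / 4 ≤ |D.f x|) : cut D m x = 0 := by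
  have hm' : (0 : ℝ) < m := by exact_mod_cast hm
  rw [cut, bump_zero, Complex.ofReal_zero]
  rw [abs_div, abs_of_pos hm', le_div_iff₀ hm']
  linarith

theorem norm_cut_le (m : ℕ) (x : M) : ‖cut D m x‖ ≤ 1 := by
  rw [cut, Complex.norm_real, Real.norm_of_nonneg bump.nonneg]
  exact bump.le_one

variable [IsManifold 𝓘(ℂ, C2) ω M]

theorem reg0_cut (m : ℕ) : Reg0 ∞ 0 (cut D m) := by
  rw [reg0_iff_at]
  intro x
  have hg : ContDiff ℝ ∞ fun z : ℂ => ((bump (z.re / m) : ℝ) : ℂ) :=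
    Complex.ofRealCLM.contDiff.comp (bump_smooth.comp
      ((Complex.reCLM.contDiff).div_const _))
  exact At0.comp (D.f_smooth.at x) hg.contDiffAt

theorem dbar0_cut (m : ℕ) (x : M) (i : Fin 2) :
    dbar0 0 (cut D m) x i =
      (((deriv bump (D.f x / m) / m : ℝ)) : ℂ) • dbar0 0 (fun y => (D.f y : ℂ)) x i := by
  have hd : HasDerivAt (fun t : ℝ => bump (t / m)) (deriv bump (D.f x / m) / m) (D.f x) := by
    have h1 : HasDerivAt bump (deriv bump (D.f x / m)) (D.f x / m) :=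
      (bump_smooth.differentiable (by simp)).differentiableAt.hasDerivAt
    have h2 : HasDerivAt (fun t : ℝ => t / m) (1 / m) (D.f x) := (hasDerivAt_id _).div_const _
    have := h1.comp (D.f x) h2
    rw [mul_one_div] at this
    exact this
  have := dbar0_real_comp (f := D.f) ((D.f_smooth.at x).of_le (by simp)) hd.differentiableAt i
  rw [hd.deriv] at this
  exact this

theorem exists_n1_df : ∃ C, 0 ≤ C ∧ ∀ x, n1 D.h 0 (dbar0 0 fun y => (D.f y : ℂ)) x ≤ C := by
  have hr : Reg1 ∞ 0 (dbar0 0 fun y => (D.f y : ℂ)) := D.f_smooth.dbar infty_add_one_le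
  refine bdd_of_inv D (continuous_n1 D.herm hr) fun x => ?_
  rw [← D.n1_comp]
  congr 1
  funext y
  have h1 := (D.chartMap_sh 1).dbar0_comp 0 (fun y => (D.f y : ℂ)) y
  rw [D.sh_one] at h1
  rw [← h1]
  have h2 : (fun z => (D.f (D.sh 1 z) : ℂ)) = fun z => (D.f z : ℂ) + 1 := by
    funext z
    rw [D.sh_one, D.f_γ]
    push_cast
    ring
  rw [h2, dbar0_add ((D.f_smooth.at y).of_le (by simp)) at0_const, dbar0_const, add_zero]

theorem exists_n1_cut : ∃ C, 0 ≤ C ∧ ∀ (m : ℕ) (x : M), n1 D.h 0 (dbar0 0 (cut D m)) x ≤ C / m := by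
  obtain ⟨C1, hC1, h1⟩ := exists_deriv_bump
  obtain ⟨C2, hC2, h2⟩ := exists_n1_df D
  refine ⟨C1 * C2, by positivity, fun m x => ?_⟩
  have h : dbar0 0 (cut D m) = fun y i => (((deriv bump (D.f y / m) / m : ℝ)) : ℂ) •
      dbar0 0 (fun y => (D.f y : ℂ)) y i := by
    funext y i
    exact dbar0_cut D m y i
  rw [h]
  have h3 := n1_smul D.herm.posDef 0 (fun y => (((deriv bump (D.f y / m) / m : ℝ)) : ℂ))
    (dbar0 0 (fun y => (D.f y : ℂ))) x
  have h4 : n1 D.h 0 (fun y i => (((deriv bump (D.f y / m) / m : ℝ)) : ℂ) •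
      dbar0 0 (fun y => (D.f y : ℂ)) y i) x =
      ‖(((deriv bump (D.f x / m) / m : ℝ)) : ℂ)‖ * n1 D.h 0 (dbar0 0 (fun y => (D.f y : ℂ))) x := h3
  rw [h4, Complex.norm_real, Real.norm_eq_abs, abs_div, Nat.abs_cast, mul_div_right_comm]
  gcongr
  · exact n1_nonneg D.herm.posDef _ _ _
  · exact h1 _
  · exact h2 x

/-! ### weights -/

theorem weight_le {n : M → ℝ} (hn : Continuous n) {A δ : ℝ} (hA : 0 ≤ A)
    (h : ∀ j : ℤ, D.prof n j ≤ A * ew δ j) (x : M) :
    n x ≤ A * Real.exp |δ| * Real.exp (δ * D.f x) := by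
  have := weight_of_prof_le D hn (d := -δ) hA (fun j => by simpa [ew] using h j) x
  simpa using this

theorem prof_le_ew {n : M → ℝ} {B δ : ℝ} (hB : 0 ≤ B)
    (h : ∀ x, n x ≤ B * Real.exp (δ * D.f x)) (j : ℤ) :
    D.prof n j ≤ B * Real.exp |δ| * ew δ j := by
  have := prof_le_of_weight D (d := -δ) hB (fun x => by simpa using h x) j
  simpa [ew] using this

/-- equivariant sections have bounded profile for the weight `e^{δ f}` -/
theorem bdd_of_equiv {m : ℕ} (hm : 0 < m) {δ : ℝ} {s : M → EuclideanSpace ℂ ι}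
    (hs : Reg0 ∞ 0 s) (he : D.Equiv (m : ℤ) ((Real.exp (δ * m) : ℝ) : ℂ) s) :
    ∃ A, ∀ j, D.p0 0 s j ≤ A * ew δ j := by
  have hc : Continuous (n0 D.h 0 s) := continuous_n0 D.herm hs
  have hf := continuous_f D
  obtain ⟨C, hC⟩ := ((D.f_proper (-(m : ℝ) / 2) (m / 2)).image
    (hc.mul (Real.continuous_exp.comp ((continuous_const (y := -δ)).mul hf)))).bddAbove
  refine ⟨max C 0 * Real.exp |δ|, fun j => prof_le_ew D (le_max_right _ _) (fun x => ?_) j⟩
  have hμ : ((Real.exp (δ * m) : ℝ) : ℂ) ≠ 0 := by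
    exact_mod_cast (Real.exp_pos _).ne'
  have hm' : (0 : ℤ) < m := by exact_mod_cast hm
  have h1 : n0 D.h 0 s x = ‖((Real.exp (δ * m) : ℝ) : ℂ)‖ ^ D.win (m : ℤ) x *
      n0 D.h 0 s (D.mv (m : ℤ) x) := by
    rw [n0_zero_eq, n0_zero_eq, equiv_mv D hμ he x, norm_smul, norm_zpow]
  have h2 : n0 D.h 0 s (D.mv (m : ℤ) x) ≤ max C 0 * Real.exp (δ * D.f (D.mv (m : ℤ) x)) := by
    have h3 : n0 D.h 0 s (D.mv (m : ℤ) x) * Real.exp (-δ * D.f (D.mv (m : ℤ) x)) ≤ C :=
      hC ⟨D.mv (m : ℤ) x, ?_, rfl⟩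
    · have h4 : n0 D.h 0 s (D.mv (m : ℤ) x) = n0 D.h 0 s (D.mv (m : ℤ) x) *
          Real.exp (-δ * D.f (D.mv (m : ℤ) x)) * Real.exp (δ * D.f (D.mv (m : ℤ) x)) := by
        rw [mul_assoc, ← Real.exp_add]
        simp
      rw [h4]
      gcongr
      exact h3.trans (le_max_left _ _)
    · have := D.abs_f_mv hm' x
      rw [abs_le] at this
      push_cast at this
      constructor <;> linarith [this.1, this.2]
  rw [h1, ← zpow_weight D (m := m) (δ := δ) x, mul_left_comm]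
  gcongr

end Vale.Agent.P267.H87
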